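import Vale.Agent.P284.H553.PT.Der

/-!
# P284 (helper553), PotV: the local statements (`LocPot`, `LocDer`) for Hilbert valued functions
-/

open scoped Manifold ContDiff Topology InnerProductSpace ComplexConjugate ENNReal Matrix
open Filter Set MeasureTheory Metric

noncomputable section

set_option linter.unusedSectionVars false

namespace Vale.Agent.P284.H553.PV

open Vale.Agent.P272.K Vale.Agent.P272.K.INT Vale.Agent.P284.H513.V
  Vale.Agent.P284.H366 Vale.Agent.P284.H366.PT Vale.Agent.P284.H553.PT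

section
variable {n : ℕ} {H : ℕ → Type} [∀ k, NormedAddCommGroup (H k)]
  [∀ k, InnerProductSpace ℂ (H k)]

/-- conjugations of the spaces `H k` -/
structure Cjs (cj : ∀ k, H k →SL[starRingEnd ℂ] H k) : Prop where
  norm : ∀ k u, ‖cj k u‖ = ‖u‖

variable {cj : ∀ k, H k →SL[starRingEnd ℂ] H k}

theorem Cjs.bd (h : Cjs cj) : ∃ M : ℝ, ∀ k, ‖cj k‖ ≤ M :=
  ⟨1, fun k => ContinuousLinearMap.opNorm_le_bound _ zero_le_one fun u => by rw [h.norm, one_mul]⟩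

/-- the conjugation of the ultraproduct -/
def cjG (h : Cjs cj) (U : Ultrafilter ℕ) : UP H U →SL[starRingEnd ℂ] UP H U := upMap U cj h.bd

theorem cjG_mk (h : Cjs cj) (U : Ultrafilter ℕ) {x : ∀ k, H k} (hx : Bd x) :
    cjG h U (mk U x) = mk U fun k => cj k (x k) := upMap_mk _ hx

theorem Cjs.norm_sub (h : Cjs cj) (k : ℕ) (u v : H k) : ‖cj k u - cj k v‖ = ‖u - v‖ := by
  rw [← map_sub, h.norm]

theorem Cjs.bdd (h : Cjs cj) {x : ∀ k, H k} (hx : Bd x) : Bd fun k => cj k (x k) := by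
  obtain ⟨M, hM⟩ := hx
  exact ⟨M, fun k => by rw [h.norm]; exact hM k⟩

theorem Cjs.appr (hc : Cjs cj) {U : Ultrafilter ℕ} {z₀ : Cm n} {v φ : ∀ k, Cm n → H k}
    (h : Appr U z₀ v φ) : Appr U z₀ (fun k y => cj k (v k y)) (fun k y => cj k (φ k y)) := by
  obtain ⟨ρ, C, h⟩ := h
  refine ⟨ρ, C, h.pos, h.nn, fun k z hz => ?_, fun k z hz z' hz' => ?_, fun k => ?_, fun k => ?_, ?_⟩
  · rw [hc.norm]; exact h.bd k z hz
  · rw [hc.norm_sub]; exact h.lip k z hz z' hz'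
  · exact (cj k).continuous.comp_continuousOn (h.cont k)
  · simp only [hc.norm_sub]; exact h.int k
  · simp only [hc.norm_sub]; exact h.lim

end

/-- a conjugation, as a real linear map -/
def rl {W : Type*} [NormedAddCommGroup W] [NormedSpace ℂ W] (J : W →SL[starRingEnd ℂ] W) :
    W →L[ℝ] W :=
  ⟨⟨⟨J, map_add J⟩, fun c u => by
    have h := map_smulₛₗ J (c : ℂ) u
    rw [Complex.conj_ofReal, Complex.coe_smul, Complex.coe_smul] at h
    exact h⟩, J.continuous⟩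

/-- the derivative of a real function -/
theorem real_DH {n : ℕ} {W : Type*} [NormedAddCommGroup W] [NormedSpace ℂ W]
    (J : W →SL[starRingEnd ℂ] W) {g : Cm n → W} {z : Cm n} (hg : DifferentiableAt ℝ g z)
    (hJ : ∀ᶠ y in 𝓝 z, J (g y) = g y) (v : Cm n) :
    fderiv ℝ g z v = DH g z v + J (DH g z v) := by
  have h1 : ∀ v, J (fderiv ℝ g z v) = fderiv ℝ g z v := by
    intro v
    have h2 : HasFDerivAt (fun y => J (g y)) ((rl J).comp (fderiv ℝ g z)) z :=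
      (rl J).hasFDerivAt.comp z hg.hasFDerivAt
    have h3 : HasFDerivAt g ((rl J).comp (fderiv ℝ g z)) z :=
      h2.congr_of_eventuallyEq (hJ.mono fun y hy => hy.symm)
    exact (DFunLike.congr_fun (h3.unique hg.hasFDerivAt) v)
  rw [DH, map_smulₛₗ J, map_sub, map_smulₛₗ J, h1, h1, Complex.conj_I]
  have e : (starRingEnd ℂ) (1 / 2 : ℂ) = 1 / 2 := by
    rw [map_div₀, map_one, Complex.conj_ofNat]
  rw [e, ← smul_add, neg_smul, sub_neg_eq_add, sub_add_add_cancel, ← two_smul ℂ, smul_smul]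
  norm_num

section
variable {n q : ℕ} {H : ℕ → Type} [∀ k, NormedAddCommGroup (H k)]
  [∀ k, InnerProductSpace ℂ (H k)] [∀ k, CompleteSpace (H k)] {U : Ultrafilter ℕ}

/-- the local data: `Φ k` are real functions, `φ k = dt_1 ∧ … ∧ dt_q ∧ ∂Φ k` (on vertical vectors), an
almost holomorphic sequence -/
structure LData (U : Ultrafilter ℕ) (c : Cm n) (R r δ : ℝ) (η Θ : Cm n → ℝ)
    (φ : ∀ k, Cm n → (Cm n [⋀^Fin (q + 1)]→ₗ[ℂ] H k)) (Φ : ∀ k, Cm n → H k)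
    (cj : ∀ k, H k →SL[starRingEnd ℂ] H k) (t : Cm n → Cm q) (z₁ : Cm n) : Prop where
  fseq : FSeq U c R φ
  mol : Mol δ η Θ
  nn : 0 ≤ δ
  le : r + δ ≤ R
  mem : z₁ ∈ ball c r
  an : AnalyticAt ℂ t z₁
  sur : Function.Surjective (fderiv ℂ t z₁)
  cjs : Cjs cj
  smooth : ∀ᶠ z in 𝓝 z₁, ∀ k, ContDiffAt ℝ 1 (Φ k) z
  real : ∀ᶠ z in 𝓝 z₁, ∀ k, cj k (Φ k z) = Φ k z
  vert : ∀ᶠ z in 𝓝 z₁, ∀ k (ξ : Fin q → Cm n) (u : Cm n),
    (∀ i, fderiv ℂ t z (ξ i) = Pi.single i 1) → fderiv ℂ t z u = 0 →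
      φ k z (Fin.snoc (α := fun _ => Cm n) ξ u) = DH (Φ k) z u

variable {c : Cm n} {R r δ : ℝ} {η Θ : Cm n → ℝ} {φ : ∀ k, Cm n → (Cm n [⋀^Fin (q + 1)]→ₗ[ℂ] H k)}
  {Φ : ∀ k, Cm n → H k} {cj : ∀ k, H k →SL[starRingEnd ℂ] H k} {t : Cm n → Cm q} {z₁ : Cm n}

/-- approximation of the derivative along the fibres -/
theorem LData.vert_appr (h : LData U c R r δ η Θ φ Φ cj t z₁) {T χ : Cm n → Cm n}
    (hχ : Chi t z₁ T χ) {e : Fin q → Cm n} (he : ∀ i, fderiv ℂ t z₁ (e i) = Pi.single i 1) :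
    ∀ᶠ x in 𝓝 (0 : Cm n), ∀ v, fderiv ℂ t z₁ v = 0 →
      ∃ w : ∀ k, Cm n → H k, Appr U x w (fun k y => fderiv ℝ (fun x => Φ k (χ x)) y v) ∧
      H366.mk U (fun k => w k x) = SF U η φ (χ x)
          (Fin.snoc (α := fun _ => Cm n) (fun i => fderiv ℂ χ x (e i)) (fderiv ℂ χ x v)) +
        cjG h.cjs U (SF U η φ (χ x)
          (Fin.snoc (α := fun _ => Cm n) (fun i => fderiv ℂ χ x (e i)) (fderiv ℂ χ x v))) := by
  have hdt := hχ.dt h.an
  filter_upwards [hχ.tχ.eventually (isOpen_ball.mem_nhds h.mem), hχ.χan.eventually_analyticAt,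
    hχ.χbij, (hχ.tχ.eventually h.smooth).eventually_nhds, hdt.eventually_nhds,
    hχ.χan.eventually_analyticAt.eventually_nhds,
    (hχ.tχ.eventually h.real.eventually_nhds).eventually_nhds,
    (hχ.tχ.eventually h.vert).eventually_nhds]
    with x a1 a2 a3 a4 a5 a6 a7 a8 v hv
  have hΞ : ∀ i : Fin (q + 1), ContDiffAt ℝ 1
      (fun y => (Fin.snoc (fun i => fderiv ℂ χ y (e i)) (fderiv ℂ χ y v) :
        Fin (q + 1) → Cm n) i) x := by
    have h0 : ∀ u : Cm n, ContDiffAt ℝ 1 (fun y => fderiv ℂ χ y u) x := by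
      intro u
      have h1 : ContDiffAt ℝ 1 (fderiv ℂ χ) x := (a2.fderiv.contDiffAt).restrict_scalars ℝ
      have := ((ContinuousLinearMap.apply ℂ (Cm n) u).restrictScalars ℝ).contDiff.contDiffAt
        (n := 1) (x := fderiv ℂ χ x)
      exact this.comp x h1
    intro i
    refine Fin.lastCases ?_ (fun j => ?_) i
    · simp only [Fin.snoc_last]
      exact h0 v
    · simp only [Fin.snoc_castSucc]
      exact h0 (e j)
  obtain ⟨w₀, hw1, hw2⟩ := appr_frame h.fseq h.mol h.nn h.le a1 a2 a3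
    (fun i y => (Fin.snoc (fun i => fderiv ℂ χ y (e i)) (fderiv ℂ χ y v) :
        Fin (q + 1) → Cm n) i) hΞ
  have hbd := hw1.bdd
  refine ⟨fun k y => w₀ k y + cj k (w₀ k y), ?_, ?_⟩
  · refine (hw1.add (h.cjs.appr hw1)).congr (Eventually.of_forall fun y k => rfl) ?_
    filter_upwards [a4, a5, a6, a7, a8] with y b1 b2 b3 b4 b5 k
    have hP : DifferentiableAt ℝ (Φ k) (χ y) := (b1 k).differentiableAt (by simp)
    have h1 : fderiv ℝ (fun x => Φ k (χ x)) y v = fderiv ℝ (Φ k) (χ y) (fderiv ℂ χ y v) := by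
      have hχy : HasFDerivAt χ ((fderiv ℂ χ y).restrictScalars ℝ) y :=
        b3.differentiableAt.hasFDerivAt.restrictScalars ℝ
      have := (hP.hasFDerivAt.comp y hχy).fderiv
      have h2 : (Φ k ∘ χ) = fun x => Φ k (χ x) := rfl
      rw [h2] at this
      rw [this]
      rfl
    have hsn : (fun i : Fin (q + 1) => (Fin.snoc (fun i => fderiv ℂ χ y (e i)) (fderiv ℂ χ y v) :
        Fin (q + 1) → Cm n) i) = Fin.snoc (fun i => fderiv ℂ χ y (e i)) (fderiv ℂ χ y v) := rfl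
    rw [h1, hsn, real_DH (cj k) hP (b4.mono fun z hz => hz k),
      b5 k (fun i => fderiv ℂ χ y (e i)) (fderiv ℂ χ y v) (fun i => by rw [b2, he])
        (by rw [b2, hv])]
  · have h1 : H366.mk U (fun k => w₀ k x + cj k (w₀ k x)) =
        H366.mk U (fun k => w₀ k x) + H366.mk U (fun k => cj k (w₀ k x)) := mk_add hbd (h.cjs.bdd hbd)
    rw [h1, ← cjG_mk h.cjs U hbd, hw2]

theorem LData.cd (h : LData U c R r δ η Θ φ Φ cj t z₁) {T χ : Cm n → Cm n}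
    (hχ : Chi t z₁ T χ) : ∃ ρ > 0, ∀ x ∈ ball (0 : Cm n) ρ, ∀ k,
      ContDiffAt ℝ 1 (fun x => Φ k (χ x)) x := by
  have h2 : ∀ᶠ x in 𝓝 (0 : Cm n), (∀ k, ContDiffAt ℝ 1 (Φ k) (χ x)) ∧ AnalyticAt ℂ χ x :=
    (hχ.tχ.eventually h.smooth).and hχ.χan.eventually_analyticAt
  obtain ⟨ρ, hρ, h3⟩ := Metric.eventually_nhds_iff_ball.1 h2
  refine ⟨ρ, hρ, fun x hx k => ?_⟩
  obtain ⟨h4, h5⟩ := h3 x hx
  exact (h4 k).comp x (h5.contDiffAt.restrict_scalars ℝ)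

/-- **LocPot** -/
theorem LData.locPot (h : LData U c R r δ η Θ φ Φ cj t z₁) :
    ∃ b : ∀ k, Cm q → H k, ∀ᶠ z in 𝓝 z₁, ∃ V, Appr U z V fun k y => Φ k y - b k (t y) := by
  obtain ⟨T, χ, hχ⟩ := exists_chi h.an h.sur
  obtain ⟨ρ, hρ, hcd⟩ := h.cd hχ
  have hv := (h.vert_appr hχ (e := rinv (fderiv ℂ t z₁)) (L_rinv h.sur)).self_of_nhds
  obtain ⟨b, r', hr, hb⟩ := locB n q H U (fderiv ℂ t z₁) h.sur
    (fun k x => Φ k (χ x)) ρ hρ (fun k x hx => hcd x hx k)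
    fun v hv0 => by
      obtain ⟨w, hw, -⟩ := hv v hv0
      exact ⟨w, hw⟩
  refine ⟨fun k s => b k (s - t z₁), ?_⟩
  filter_upwards [hχ.tT.eventually (ball_mem_nhds 0 hr), hχ.Tan.eventually_analyticAt, hχ.Tbij,
    hχ.χT.eventually_nhds] with z h1 h2 h3 h4
  obtain ⟨V, hV⟩ := hb (T z) h1
  have h5 := H213.PT.compStmt n H U T z h2 h3 _ _ hV
  refine ⟨fun k y => V k (T y), h5.congr (Eventually.of_forall fun y k => rfl) ?_⟩
  filter_upwards [h4] with y hy k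
  rw [hy, hχ.eq y]

/-- **LocDer** -/
theorem LData.locDer (h : LData U c R r δ η Θ φ Φ cj t z₁)
    (han : AnalyticAt ℂ (SF U η φ) z₁) (hcl : ∀ᶠ z in 𝓝 z₁, extDeriv (SF U η φ) z = 0)
    (hrel : ∀ᶠ z in 𝓝 z₁, ∀ (ξ : Fin (q + 1) → Cm n) (i j : Fin (q + 1)), i ≠ j →
      fderiv ℂ t z (ξ i) = 0 → fderiv ℂ t z (ξ j) = 0 → SF U η φ z ξ = 0)
    (b : ∀ k, Cm q → H k) (V : ∀ k, Cm n → H k) (hV : Appr U z₁ V fun k y => Φ k y - b k (t y)) :
    ∃ G : Cm n → UP H U, AnalyticAt ℂ G z₁ ∧ ∀ᶠ z in 𝓝 z₁,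
      H501.IsW (fderiv ℂ t z) (SF U η φ z) (fderiv ℂ G z) ∧
      (t z = t z₁ → H366.mk U (fun k => V k z) = H366.mk U (fun k => V k z₁) +
        (G z - G z₁) + (cjG h.cjs U (G z) - cjG h.cjs U (G z₁))) := by
  obtain ⟨G, hGan, hGW⟩ := H625.rel_poincare h.an han hcl hrel h.sur
  refine ⟨G, hGan, hGW.and ?_⟩
  obtain ⟨T, χ, hχ⟩ := exists_chi h.an h.sur
  obtain ⟨ρ, hρ, hcd⟩ := h.cd hχ
  set e : Fin q → Cm n := rinv (fderiv ℂ t z₁) with he
  have hee : ∀ i, fderiv ℂ t z₁ (e i) = Pi.single i 1 := L_rinv h.sur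
  have hv := h.vert_appr hχ (e := e) hee
  set G' : Cm n → UP H U := fun x => G (χ x) + cjG h.cjs U (G (χ x)) with hG'
  have hGd : ∀ᶠ x in 𝓝 (0 : Cm n), DifferentiableAt ℝ G' x ∧ ∀ v, fderiv ℂ t z₁ v = 0 →
      ∃ w : ∀ k, Cm n → H k, Appr U x w (fun k y => fderiv ℝ (fun x => Φ k (χ x)) y v) ∧
        fderiv ℝ G' x v = H366.mk U fun k => w k x := by
    filter_upwards [hv, hχ.tχ.eventually hGW, hχ.tχ.eventually hGan.eventually_analyticAt,
      hχ.χan.eventually_analyticAt, hχ.dt h.an] with x a1 a2 a3 a4 a5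
    have hcomp : HasFDerivAt (fun x => G (χ x)) ((fderiv ℂ G (χ x)).comp (fderiv ℂ χ x)) x :=
      a3.differentiableAt.hasFDerivAt.comp x a4.differentiableAt.hasFDerivAt
    obtain ⟨b1, b2⟩ := re_deriv (cjG h.cjs U) hcomp.differentiableAt
    refine ⟨b1, fun v hv0 => ?_⟩
    obtain ⟨w, hw1, hw2⟩ := a1 v hv0
    refine ⟨w, hw1, ?_⟩
    have h3 := a2.snoc (fun i => fderiv ℂ χ x (e i)) (η := fderiv ℂ χ x v) (by rw [a5, hv0])
    rw [dL_one fun i => by rw [a5, hee], one_smul] at h3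
    rw [hw2, h3, b2 v, hcomp.fderiv]
    rfl
  obtain ⟨ρ', hρ', hGd'⟩ := Metric.eventually_nhds_iff_ball.1 hGd
  have hbij : Function.Bijective (fderiv ℂ χ 0) := hχ.χbij.self_of_nhds
  have hV' : Appr U 0 (fun k x => V k (χ x))
      (fun k x => Φ k (χ x) - (fun k s => b k (s + t z₁)) k (fderiv ℂ t z₁ x)) := by
    have h5 := H213.PT.compStmt n H U χ 0 hχ.χan hbij V
      (fun k y => Φ k y - b k (t y)) (by rw [hχ.χ0]; exact hV)
    refine h5.congr (Eventually.of_forall fun y k => rfl) ?_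
    filter_upwards [hχ.t_χ] with y hy k
    rw [hy, add_comm (t z₁)]
  obtain ⟨ε, hε, hfin⟩ := locD n q H U (fderiv ℂ t z₁)
    (fun k x => Φ k (χ x)) 0 (min ρ ρ') (lt_min hρ hρ')
    (fun k x hx => hcd x (ball_subset_ball (min_le_left _ _) hx) k)
    (fun k s => b k (s + t z₁)) (fun k x => V k (χ x)) hV' G'
    (fun x hx => hGd' x (ball_subset_ball (min_le_right _ _) hx))
  filter_upwards [hχ.tT.eventually (ball_mem_nhds 0 hε), hχ.χT] with z h1 h2 h3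
  have h4 : fderiv ℂ t z₁ (T z) = fderiv ℂ t z₁ 0 := by
    rw [hχ.eq z, map_zero, h3, sub_self]
  have h5 := hfin (T z) h1 h4
  simp only [hG', h2, hχ.χ0] at h5
  rw [h5]
  abel

end

end Vale.Agent.P284.H553.PV
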